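import Vale.Agent.P218.H313.C4

/-! Package C: `Vale.Agent.P218.H313.strong_compactness` (proved in `C4.lean`). -/
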