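import Vale.Agent.P218.H552.GB

/-! Nondegenerate shrinkers: definitions used throughout the folder `P218/H313`. -/

open MeasureTheory Set Filter Topology Metric
open scoped ENNReal NNReal RealInnerProductSpace

namespace Vale.Agent.P218.H313

open Vale.Agent.P214 (IntegralVarifold proj divAlong IsTestField)
open Vale.Agent.P218.H552 (MC BF NN)

variable {E : Type*} [NormedAddCommGroup E] [InnerProductSpace ℝ E] [FiniteDimensional ℝ E]
  [MeasurableSpace E] [BorelSpace E]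

/-- the Gaussian weight `e^{-|x|²/4}` -/
noncomputable def rho (x : E) : ℝ := Real.exp (-‖x‖ ^ 2 / 4)

/-- the velocity `φ = H + x^⊥ / 2` of the rescaled flow -/
noncomputable def vel (T : E → Submodule ℝ E) (H : E → E) (x : E) : E :=
  H x + (1 / 2 : ℝ) • (x - proj (T x) x)

/-- the dissipation `∫ |φ|² ρ dμ` -/
noncomputable def dis (μ : Measure E) (T : E → Submodule ℝ E) (H : E → E) : ℝ :=
  ∫ x, ‖vel T H x‖ ^ 2 * rho x ∂μ

/-- the rate `∫ (⟨∇f, φ⟩ - f |φ|²) ρ dμ` -/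
noncomputable def LL (μ : Measure E) (T : E → Submodule ℝ E) (H : E → E) (f : E → ℝ) : ℝ :=
  ∫ x, (fderiv ℝ f x (vel T H x) - f x * ‖vel T H x‖ ^ 2) * rho x ∂μ

/-- the kernel `(1 - |z|²)₊²` -/
noncomputable def ker (z : E) : ℝ := (max (1 - ‖z‖ ^ 2) 0) ^ 2

/-- the integral of the kernel over an `m`-plane -/
noncomputable def om (m : ℕ) : ℝ :=
  ∫ p, ker p ∂(μH[m] : Measure (EuclideanSpace ℝ (Fin m)))

/-- what is used of an integral varifold with mean curvature: the first variation and the lower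
density bound `≥ 1` almost everywhere -/
structure Slice (m : ℕ) (μ : Measure E) (T : E → Submodule ℝ E) (H : E → E) : Prop where
  mc : MC m μ T H
  dens : ∀ᵐ x ∂μ, ∀ c < om m, ∀ᶠ r in 𝓝[>] (0 : ℝ), c ≤ (∫ y, ker (r⁻¹ • (y - x)) ∂μ) / r ^ m

/-- a slice with Gaussian bounds -/
structure GSlice (m : ℕ) (μ : Measure E) (T : E → Submodule ℝ E) (H : E → E) : Prop
    extends Slice m μ T H where
  mom : ∀ p : ℕ, Integrable (fun x => (1 + ‖x‖) ^ p * rho x) μ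
  vsq : ∀ p : ℕ, Integrable (fun x => (1 + ‖x‖) ^ p * ‖vel T H x‖ ^ 2 * rho x) μ

/-- polynomial growth -/
def PB {F : Type*} [NormedAddCommGroup F] (f : E → F) : Prop :=
  ∃ (C : ℝ) (p : ℕ), 0 ≤ C ∧ ∀ x, ‖f x‖ ≤ C * (1 + ‖x‖) ^ p

/-- what is used of the rescaled flow: on `[s₀, ∞)`, Gaussian bounds, mass ratio bounds, slices,
and the weighted Brakke inequality -/
structure RF (m : ℕ) (N : ℝ → Measure E) (T : ℝ → E → Submodule ℝ E) (H : ℝ → E → E)
    (s₀ : ℝ) : Prop where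
  fin : ∀ s, s₀ ≤ s → IsFiniteMeasure (N s)
  gauss : ∃ C : ℝ, ∀ s, s₀ ≤ s → ∫ y, Real.exp (-‖y‖ ^ 2 / 8) ∂(N s) ≤ C
  ratio : ∃ C : ℝ, ∀ s, s₀ ≤ s → ∀ (x : E) (r : ℝ), 0 < r → r ≤ 1 →
    (N s).real (closedBall x r) ≤ C * r ^ m
  slice : ∀ᵐ s : ℝ, s₀ ≤ s → Slice m (N s) (T s) (H s)
  ineq : ∀ f : E → ℝ, ContDiff ℝ 1 f → HasCompactSupport f → (∀ x, 0 ≤ f x) →
    ∀ a b : ℝ, s₀ ≤ a → a ≤ b →
      IntervalIntegrable (fun s => LL (N s) (T s) (H s) f) volume a b ∧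
      ∫ x, f x * rho x ∂(N b) - ∫ x, f x * rho x ∂(N a) ≤ ∫ s in a..b, LL (N s) (T s) (H s) f

/-- the gradient -/
noncomputable def grad (f : E → ℝ) (x : E) : E :=
  haveI := FiniteDimensional.complete ℝ E
  (InnerProductSpace.toDual ℝ E).symm (fderiv ℝ f x)

/-- the trace -/
noncomputable def tr (A : E →L[ℝ] E) : ℝ := LinearMap.trace ℝ E A.toLinearMap

/-- A function `W` which near its zero set `S` is the signed distance to `S`, with bounds that are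
uniform on `E`; `S` is a self-shrinker to first order off `S`. -/
structure TubeD (W : E → ℝ) (c K : ℝ) : Prop where
  cpos : 0 < c
  smooth : ContDiff ℝ 2 W
  b0 : ∀ x, |W x| ≤ K
  b1 : ∀ x, ‖grad W x‖ ≤ K
  b2 : ∀ x, ‖fderiv ℝ (grad W) x‖ ≤ K
  bx : ∀ x, |⟪x, grad W x⟫| ≤ K
  eik : ∀ x, |W x| < c → ‖grad W x‖ = 1
  ric : ∀ x, |W x| < c → |tr (fderiv ℝ (grad W) x) - 1 / 2 * ⟪x, grad W x⟫
    + (tr ((fderiv ℝ (grad W) x).comp (fderiv ℝ (grad W) x)) + 1 / 2) * W x| ≤ K * W x ^ 2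

/-- the Jacobi operator of `{W = 0}` applied to an ambient function `ζ`, for `W` as above -/
noncomputable def jac (W ζ : E → ℝ) (x : E) : ℝ :=
  tr (fderiv ℝ (grad ζ) x) - ⟪fderiv ℝ (grad ζ) x (grad W x), grad W x⟫ - 1 / 2 * ⟪x, grad ζ x⟫
    + (tr ((fderiv ℝ (grad W) x).comp (fderiv ℝ (grad W) x)) + 1 / 2) * ζ x

/-- the squared distance `∫ W² (1 + |x|²)^j ρ` -/
noncomputable def DD (μ : Measure E) (W : E → ℝ) (j : ℕ) : ℝ :=
  ∫ x, W x ^ 2 * (1 + ‖x‖ ^ 2) ^ j * rho x ∂μ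

end Vale.Agent.P218.H313
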